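import Vale.Agent.P286EXI.Xi

/-!
# The evaluation of `Ξ` at the generators
-/

set_option linter.all false

namespace Vale.Agent.P286EX

open CategoryTheory TensorProduct Vale.Agent.P286 Vale.Agent.P286.St Vale.Agent.P286.H847
  Vale.Agent.P286.H353 Vale.Agent.P286.H710 Vale.Agent.P286.H697 Vale.Agent.P286.H761
  Vale.Agent.P286E
open Vale.Agent.P286EK (DGA DD DM mdc mqis mh mo mz)
open Vale.Agent.P286.H389 (outM outM_tmul)

noncomputable section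

section Gen

variable {A : Type} [CommRing A] [Algebra ℂ A] {V W : Type} [AddCommGroup V] [Module A V]
  [AddCommGroup W] [Module A W]

theorem out_one_smul (η : DR ℂ A V →ₗ[Om ℂ A] DR ℂ A W) (a : A) (x : V) :
    outM A W (η ((1 : Om ℂ A) ⊗ₜ[A] (a • x))) = a • outM A W (η ((1 : Om ℂ A) ⊗ₜ[A] x)) := by
  rw [tmul_smul, LinearMap.map_smul_of_tower, map_smul]

theorem out_one_sum (η : DR ℂ A V →ₗ[Om ℂ A] DR ℂ A W) {n : ℕ} (a : Fin n → A) (x : Fin n → V) :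
    outM A W (η ((1 : Om ℂ A) ⊗ₜ[A] (∑ l, a l • x l))) =
      ∑ l, a l • outM A W (η ((1 : Om ℂ A) ⊗ₜ[A] x l)) := by
  rw [tmul_sum, map_sum, map_sum]
  exact Finset.sum_congr rfl fun l _ => out_one_smul η _ _

end Gen

section HGs

variable {T : TSite} {S : GS T} (Q H : HG S) {X Y : T.C}

/-- The linear maps between de Rham complexes. -/
abbrev HG.LH (X : T.C) : Type :=
  (drO (bT T X) (Q.K X)).M.V →ₗ[Om ℂ (T.R X)] (H.gau.F X).M.V

/-- The element `1 ⊗ p`. -/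
def HG.o1 (X : T.C) (p : (Q.K X).M.V) : (drO (bT T X) (Q.K X)).M.V :=
  (1 : Om ℂ (T.R X)) ⊗ₜ[T.R X] p

theorem HG.o1_eq (X : T.C) (p : (Q.K X).M.V) :
    Q.o1 X p = (1 : Om ℂ (T.R X)) ⊗ₜ[T.R X] p := rfl

theorem HG.pi_ext (φ : X ⟶ Y) (η : Q.LH H X) (η' : Q.LH H Y)
    (h : ∀ x, η' (Q.gt φ x) = H.gau.t φ (η x)) (p : (Q.K X).M.V) :
    (H.pi Y).f (η' (Q.o1 Y ((Q.t φ).f p))) = (H.t φ).f ((H.pi X).f (η (Q.o1 X p))) := by
  rw [← H.pi_t, ← h]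
  refine Eq.trans ?_ (out_lin (V := (Q.K Y).M.V) (W := (H.K Y).M.V) η' (Q.gt φ _)).symm
  rw [Q.out_gt, HG.o1_eq, HG.o1_eq, outM_one]
  rfl

theorem HG.pi_smul (η : Q.LH H X) (a : T.R X) (p : (Q.K X).M.V) :
    (H.pi X).f (η (Q.o1 X (a • p))) = a • (H.pi X).f (η (Q.o1 X p)) :=
  out_one_smul (V := (Q.K X).M.V) (W := (H.K X).M.V) η a p

theorem HG.pi_sum (η : Q.LH H X) {n : ℕ} (a : Fin n → T.R X) (p : Fin n → (Q.K X).M.V) :
    (H.pi X).f (η (Q.o1 X (∑ l, a l • p l))) = ∑ l, a l • (H.pi X).f (η (Q.o1 X (p l))) :=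
  out_one_sum (V := (Q.K X).M.V) (W := (H.K X).M.V) η a p

/-- The evaluation at a cycle of degree `0`. -/
def HG.pv (X : T.C) (σ : Sg (drO (bT T X) (Q.K X))) (p : (Q.K X).M.V) (h0 : p ∈ (Q.K X).M.gr 0)
    (hd : (Q.K X).M.d p = 0) : GD.Hom (Hm σ (H.gau.F X)) (H.K X).M :=
  pev (bT T X) σ (H.K X) p h0 hd

theorem HG.pv_apply (X : T.C) (σ : Sg (drO (bT T X) (Q.K X))) (p : (Q.K X).M.V)
    (h0 : p ∈ (Q.K X).M.gr 0) (hd : (Q.K X).M.d p = 0) (η : Q.LH H X) :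
    (Q.pv H X σ p h0 hd).f η = (H.pi X).f (η (Q.o1 X p)) := rfl

end HGs

theorem CS.cy_one (X : CS) {m : ℤ} {v : X.Tot.V} (h : Cy X.Tot m v) :
    v 1 ∈ (X.X 1).gr (m - 1) ∧
      (X.X 1).d (v 1) = (X.fc 0 0).f (v 0) - (X.fc 0 1).f (v 0) := by
  refine ⟨h.1 1, ?_⟩
  have h1 : (-1 : ℂ) ^ (0 + 1) • (X.X (0 + 1)).d (v (0 + 1)) + X.dl 0 (v 0) = 0 := congrFun h.2 1
  rw [CS.dl_apply, Finset.sum_range_succ, Finset.sum_range_succ, Finset.sum_range_zero] at h1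
  simp only [zero_add, pow_one, pow_zero, one_smul, neg_smul] at h1
  rw [sub_eq_add_neg]
  exact (neg_add_eq_zero.1 h1)

variable {I : Type} [SmallCategory I] {D : CD I} {G : Grp} {s : ℂ} {K : GK G} {xd : XD D}
  {U : Rep K}

namespace PD

variable (P : PD K xd s U) (H : HG (K.gs D s))

/-- The element `1 ⊗ p`. -/
abbrev on1 (X : QO D) (p : (P.P.K X).M.V) : (P.Q X).M.V := P.P.o1 X p

/-- The element `1 ⊗ p`. -/
abbrev o1 (X : QO D) (p : (P.P.K X).M.V) : (P.Q X).M.V := P.P.o1 X p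

theorem o1_eq (X : QO D) (p : (P.P.K X).M.V) :
    P.o1 X p = (1 : Om ℂ (RQ G s X)) ⊗ₜ[RQ G s X] p := rfl

theorem raQ_o1 (X : QO D) (a : (P.A.A X.i).R) (p : (P.P.K X).M.V) :
    P.raQ X a (P.o1 X p) = P.o1 X (P.ra X a p) := rfl

theorem on1_eq (X : QO D) (p : (P.P.K X).M.V) :
    P.on1 X p = (1 : Om ℂ (RQ G s X)) ⊗ₜ[RQ G s X] p := rfl

theorem raQ_on1 (X : QO D) (a : (P.A.A X.i).R) (p : (P.P.K X).M.V) :
    P.raQ X a (P.on1 X p) = P.on1 X (P.ra X a p) := rfl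

/-- The evaluation at a cycle of degree `0` of the generator. -/
def pv (X : QO D) (p : (P.P.K X).M.V) (h0 : p ∈ (P.P.K X).M.gr 0) (hd : (P.P.K X).M.d p = 0) :
    GD.Hom (P.Φ H.gau X) (H.K X).M := P.P.pv H X (P.σ X) p h0 hd

theorem pv_apply (X : QO D) (p : (P.P.K X).M.V) (h0 : p ∈ (P.P.K X).M.gr 0)
    (hd : (P.P.K X).M.d p = 0) (η : (P.Φ H.gau X).V) :
    (P.pv H X p h0 hd).f η = (H.pi X).f (η (P.on1 X p)) := P.P.pv_apply H X (P.σ X) p h0 hd η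

/-- The evaluation at the generator `v_k`. -/
def pu (X : QO D) (k : Fin U.n) : GD.Hom (P.Φ H.gau X) (H.K X).M :=
  P.pv H X (P.uv X k) (P.uv_gr X k) (P.d_uv X k)

theorem pu_apply (X : QO D) (k : Fin U.n) (η : (P.Φ H.gau X).V) :
    (P.pu H X k).f η = (H.pi X).f (η (P.on1 X (P.uv X k))) := P.pv_apply H X _ _ _ η

theorem pi_ext {X Y : QO D} (u : Ar G s X Y) (η : (P.Φ H.gau X).V) (p : (P.P.K X).M.V) :
    (H.pi Y).f ((P.ext H.gau u).f η (P.on1 Y ((P.P.t u).f p))) =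
      (H.t u).f ((H.pi X).f (η (P.on1 X p))) :=
  P.P.pi_ext H u η ((P.ext H.gau u).f η) (P.ext_t H.gau u η) p

theorem t_uv {X Y : QO D} (u : Ar G s X Y) (h : QM.h u = 1) (k : Fin U.n) :
    (P.P.t u).f (P.uv X k) = P.uv Y k :=
  (P.t_u u k).trans ((congrArg (fun m : Matrix (Fin U.n) (Fin U.n) (RQ G s Y) =>
    ∑ l, m l k • P.uv Y l) (Un.at_one U (qpt u) h)).trans (Un.sum_one _ k))

theorem pu_ext {X Y : QO D} (u : Ar G s X Y) (h : QM.h u = 1) (k : Fin U.n)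
    (η : (P.Φ H.gau X).V) :
    (P.pu H Y k).f ((P.ext H.gau u).f η) = (H.t u).f ((P.pu H X k).f η) := by
  rw [pu_apply, pu_apply, ← P.t_uv u h k, pi_ext]

theorem pi_t_uv {X Y : QO D} (u : Ar G s X Y) (k : Fin U.n) (η : (P.Φ H.gau Y).V) :
    (H.pi Y).f (η (P.on1 Y ((P.P.t u).f (P.uv X k)))) =
      ∑ l, U.at (qh u) (qpt u) l k • (P.pu H Y l).f η := by
  rw [P.t_u u k]
  simp only [pu_apply]
  exact P.P.pi_sum H η _ _

theorem pu_ext' {X Y : QO D} (u : Ar G s X Y) (k : Fin U.n) (η : (P.Φ H.gau X).V) :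
    (H.t u).f ((P.pu H X k).f η) =
      ∑ l, U.at (qh u) (qpt u) l k • (P.pu H Y l).f ((P.ext H.gau u).f η) := by
  rw [pu_apply, ← pi_ext, pi_t_uv]

/-- The component of level `0`. -/
def l0 {F : OT (QS D G s)} {i : I} (v : ((P.xi F).M i).V) : (P.Φ F (Zo xd i)).V := P.lv v 0

/-- The component of level `1`. -/
def l1 {F : OT (QS D G s)} {i : I} (v : ((P.xi F).M i).V) : (P.Φ F (cop K (Zo xd i))).V :=
  P.lv v 1

theorem lv0_eq (F : OT (QS D G s)) (i : I) (v : ((P.xi F).M i).V) :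
    (P.lv0 F i).f v = P.l0 v := rfl

theorem l0_act {F : OT (QS D G s)} {i : I} (a : (P.A.A i).R) (v : ((P.xi F).M i).V)
    (x : (P.Q (Zo xd i)).M.V) :
    P.l0 (((P.xi F).M i).act a v) x = P.l0 v (P.raQ (Zo xd i) a x) :=
  (P.lv_act a v 0 x).trans
    (congrArg (fun b => P.l0 v (P.raQ (Zo xd i) b x)) ((P.A.A i).sz_zero a))

theorem l0_ρ {F : OT (QS D G s)} {i j : I} (α : i ⟶ j) (v : ((P.xi F).M i).V) :
    P.l0 (((P.xi F).ρ α).f v) = (P.ext F (Za K xd s α)).f (P.l0 v) := P.lv_ρ α v 0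

theorem l0_z0 {F F' : Z0 (otc (QS D G s))} (u : F ⟶ F') (i : I) (v : ((P.xi F).M i).V)
    (x : (P.Q (Zo xd i)).M.V) : P.l0 (F := F') ((mh (P.xiD.z0.map u) i).f v) x =
      ((otF (QS D G s)).hom u (Zo xd i)).f (P.l0 v x) := P.lv_z0 u i v 0 x

theorem l1_cy {F : OT (QS D G s)} {i : I} {m : ℤ} {v : ((P.xi F).M i).V}
    (h : Cy ((P.xi F).M i).toGD m v) : P.l1 v ∈ (P.Φ F (cop K (Zo xd i))).gr (m - 1) ∧
      (P.Φ F (cop K (Zo xd i))).d (P.l1 v) = (P.ext F (inr K xd s (Zo xd i))).f (P.l0 v) -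
        (P.ext F (inl K s (Zo xd i))).f (P.l0 v) := CS.cy_one (P.xcs F i) h

end PD

variable (P : PD K xd s U) (H : HG (K.gs D s))

/-- The evaluation of `Ξ` at the generator `v_k`. -/
def xiE (i : I) (k : Fin U.n) : GD.Hom ((P.xi H.gau).M i).toGD (H.fa.M (Zo xd i)).G :=
  (P.pu H (Zo xd i) k).comp (P.lv0 H.gau i)

theorem xiE_apply (i : I) (k : Fin U.n) (v : ((P.xi H.gau).M i).V) :
    (xiE P H i k).f v = (P.pu H (Zo xd i) k).f (P.l0 v) := rfl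

theorem xiE_eq (i : I) (k : Fin U.n) (v : ((P.xi H.gau).M i).V) : (xiE P H i k).f v =
    (H.pi (Zo xd i)).f (P.l0 v (P.on1 (Zo xd i) (P.uv (Zo xd i) k))) :=
  (xiE_apply P H i k v).trans (P.pu_apply H _ k _)

theorem xiE_act (i : I) (k : Fin U.n) (a : (P.A.A i).R) (v : ((P.xi H.gau).M i).V) :
    (xiE P H i k).f (((P.xi H.gau).M i).act a v) = (H.pi (Zo xd i)).f
      (P.l0 v (P.on1 (Zo xd i) (P.ra (Zo xd i) a (P.uv (Zo xd i) k)))) :=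
  (xiE_eq P H i k _).trans (congrArg (H.pi (Zo xd i)).f (P.l0_act a v _))

theorem xiE_cf (i : I) (k : Fin U.n) (z : D.C i) (v : ((P.xi H.gau).M i).V) :
    (xiE P H i k).f (((P.xi H.gau).M i).act (P.cf i z) v) =
      (H.fa.M (Zo xd i)).fn (zx D i z) ((xiE P H i k).f v) := by
  rw [xiE_act, P.ra_cf (Zo xd i) z k, xiE_eq]
  exact P.P.pi_smul H (P.l0 v) _ _

theorem xiE_ρ {i j : I} (α : i ⟶ j) (k : Fin U.n) (v : ((P.xi H.gau).M i).V) :
    (xiE P H j k).f (((P.xi H.gau).ρ α).f v) = (H.t (Za K xd s α)).f ((xiE P H i k).f v) := by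
  rw [xiE_apply, xiE_apply, P.l0_ρ]
  exact P.pu_ext H (Za K xd s α) rfl k (P.l0 v)

variable {H} in
theorem xiE_nat' {H H' : HG (K.gs D s)}
    (a : zo (C := otc (QS D G s)) H.gau ⟶ zo (C := otc (QS D G s)) H'.gau) (i : I)
    (w : (H.K (Zo xd i)).M.V → (H'.K (Zo xd i)).M.V)
    (h : ∀ y, (H'.pi (Zo xd i)).f (((otF (QS D G s)).hom a (Zo xd i)).f y) =
      w ((H.pi (Zo xd i)).f y)) (k : Fin U.n) (v : ((P.xi H.gau).M i).V) :
    (xiE P H' i k).f ((mh (P.xiD.z0.map a) i).f v) = w ((xiE P H i k).f v) :=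
  ((xiE_eq P H' i k _).trans ((congrArg (H'.pi (Zo xd i)).f
    (P.l0_z0 a i v _)).trans (h _))).trans (congrArg w (xiE_eq P H i k v).symm)

variable {H} in
theorem xiE_nat {H H' : Z0 (hgc (K.gs D s))} (a : H ⟶ H') (i : I) (k : Fin U.n)
    (v : ((P.xi (HG.gau H)).M i).V) :
    (xiE P H' i k).f ((mh (P.xiD.z0.map ((gauD (K.gs D s)).z0.map a)) i).f v) =
      ((hgF (K.gs D s)).hom a (Zo xd i)).f ((xiE P H i k).f v) :=
  xiE_nat' P ((gauD (K.gs D s)).z0.map a) i _ (fun y => HG.pi_gauC (zf a) y) k v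

/-- The values at the generators are equivariant up to boundaries. -/
theorem xiE_inv (i : I) (m : ℤ) (v : ((P.xi H.gau).M i).V) (h : Cy ((P.xi H.gau).M i).toGD m v) :
    InvC xd U H.fa i m fun k => (xiE P H i k).f v := by
  refine ⟨fun k => h.map _, fun k => ?_⟩
  obtain ⟨h1, h2⟩ := P.l1_cy h
  have h0 := (P.P.t (inr K xd s (Zo xd i))).deg _ _ (P.uv_gr (Zo xd i) k)
  have hd := ((P.ut_d (inr K xd s (Zo xd i)) _).symm.trans
    (congrArg _ (P.d_uv (Zo xd i) k))).trans (map_zero _)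
  refine ⟨(P.pv H (cop K (Zo xd i)) _ h0 hd).f (P.l1 v), (P.pv H _ _ h0 hd).deg _ _ h1,
    ((P.pv H (cop K (Zo xd i)) _ h0 hd).comm (P.l1 v)).symm.trans ?_⟩
  rw [h2, map_sub, P.pv_apply, P.pv_apply, P.pi_ext, P.pi_t_uv, ← P.pu_apply]
  refine congrArg₂ (· - ·) rfl (Finset.sum_congr rfl fun l _ => ?_)
  rw [P.pu_ext H (inl K s (Zo xd i)) rfl l]
  rfl

end

end Vale.Agent.P286EX
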