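import Vale.Agent.P286EK.Mor
import Vale.Agent.P286.H761.Xi0

/-!
# The total of a module along cosimplicial points
-/

set_option linter.all false

namespace Vale.Agent.P286EX

open CategoryTheory Vale.Agent.P286.H847 Vale.Agent.P286.H353 Vale.Agent.P286.H761
  Vale.Agent.P286EK

noncomputable section

variable {I : Type} [SmallCategory I] {C : Type 1} [Category.{0} C]

/-- The pull back of a diagram of DG algebras. -/
abbrev pull (DA : DD I) (ix : C ⥤ I) : DD C where
  A X := DA.A (ix.obj X)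
  τ φ := DA.τ (ix.map φ)
  τ_id X a := by rw [ix.map_id, DA.τ_id]
  τ_comp φ ψ a := by rw [ix.map_comp, DA.τ_comp]

/-- Cosimplicial points over the indices. -/
structure PT (ix : C ⥤ I) : Type 1 where
  P : I → CO C
  a : ∀ (i : I) (k : ℕ), i ⟶ ix.obj ((P i).P k)
  a_fc : ∀ (i : I) (k l : ℕ), a i k ≫ ix.map ((P i).fc k l) = a i (k + 1)
  m : ∀ {i j : I}, (i ⟶ j) → COM (P i) (P j)
  a_m : ∀ {i j : I} (α : i ⟶ j) (k : ℕ), a i k ≫ ix.map ((m α).f k) = α ≫ a j k
  m_id : ∀ (i : I) (k : ℕ), (m (𝟙 i)).f k = 𝟙 _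
  m_comp : ∀ {i j l : I} (α : i ⟶ j) (β : j ⟶ l) (k : ℕ),
    (m (α ≫ β)).f k = (m α).f k ≫ (m β).f k

/-- The underlying functor of a module. -/
abbrev gfM {D : DD C} (M : DM D) : GF C where
  obj X := (M.M X).toGD
  map φ := M.ρ φ
  map_id := M.ρ_id
  map_comp := M.ρ_comp

/-- The underlying natural family of a cochain. -/
def gcM {D : DD C} {M M' : DM D} {n : ℤ} (z : DM.Coch M M' n) : GCoch (gfM M) (gfM M') n :=
  ⟨z.f, z.tr, z.deg⟩

theorem sz_pow_smul {V : Type} [AddCommGroup V] [Module ℂ V] (k : ℕ) (x : V) :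
    ((-1 : ℂ) ^ k) • x = ((k : ℤ).negOnePow : ℤ) • x := by
  rw [Int.coe_negOnePow_natCast, ← Int.cast_smul_eq_zsmul ℂ]
  simp

namespace PT

variable {DA : DD I} {ix : C ⥤ I} (pt : PT ix)

/-- The element which acts on the level `k`. -/
def el (DA : DD I) (i : I) (k : ℕ) : (DA.A i).R →ₐ[ℂ] (DA.A (ix.obj ((pt.P i).P k))).R :=
  (DA.τ (pt.a i k)).f.comp ((DA.A i).sz k)

theorem el_apply (i : I) (k : ℕ) (a : (DA.A i).R) :
    pt.el DA i k a = (DA.τ (pt.a i k)).f ((DA.A i).sz k a) := rfl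

theorem τ_a_fc (i : I) (k l : ℕ) (a : (DA.A i).R) :
    (DA.τ (ix.map ((pt.P i).fc k l))).f ((DA.τ (pt.a i k)).f a) = (DA.τ (pt.a i (k + 1))).f a := by
  rw [← DA.τ_comp, pt.a_fc]

theorem τ_a_m {i j : I} (α : i ⟶ j) (k : ℕ) (a : (DA.A i).R) :
    (DA.τ (ix.map ((pt.m α).f k))).f ((DA.τ (pt.a i k)).f a) =
      (DA.τ (pt.a j k)).f ((DA.τ α).f a) := by
  rw [← DA.τ_comp, pt.a_m, DA.τ_comp]

/-- The levels. -/
abbrev cs (M : DM (pull DA ix)) (i : I) : CS := (gfM M).cs (pt.P i)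

/-- The action on the total. -/
def actL (M : DM (pull DA ix)) (i : I) (a : (DA.A i).R) :
    (pt.cs M i).Tot.V →ₗ[ℂ] (pt.cs M i).Tot.V :=
  LinearMap.pi fun k => ((M.M ((pt.P i).P k)).act (pt.el DA i k a)).comp (LinearMap.proj k)

theorem actL_apply (M : DM (pull DA ix)) (i : I) (a : (DA.A i).R) (v : (pt.cs M i).Tot.V) (k : ℕ) :
    pt.actL M i a v k = (M.M ((pt.P i).P k)).act (pt.el DA i k a) (v k) := rfl

theorem dl_act (M : DM (pull DA ix)) (i : I) (a : (DA.A i).R) (k : ℕ)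
    (x : (M.M ((pt.P i).P k)).V) :
    (pt.cs M i).dl k ((M.M ((pt.P i).P k)).act ((DA.τ (pt.a i k)).f a) x) =
      (M.M ((pt.P i).P (k + 1))).act ((DA.τ (pt.a i (k + 1))).f a) ((pt.cs M i).dl k x) := by
  rw [CS.dl_apply, CS.dl_apply, map_sum]
  refine Finset.sum_congr rfl fun l _ => ?_
  rw [map_smul]
  exact congrArg _ ((M.ρ_act _ _ x).trans (congrArg (fun b => (M.M _).act b _) (pt.τ_a_fc i k l a)))

theorem actL_D (M : DM (pull DA ix)) (i : I) (a : (DA.A i).R) (v : (pt.cs M i).Tot.V) (k : ℕ) :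
    (pt.cs M i).D (pt.actL M i a v) k =
      pt.actL M i ((DA.A i).d a) v k + pt.actL M i ((DA.A i).sg a) ((pt.cs M i).D v) k := by
  cases k with
  | zero =>
    have h3 := (M.M ((pt.P i).P 0)).leib ((DA.τ (pt.a i 0)).f a) (v 0)
    rw [← (DA.τ _).comm, ← (DA.τ _).sg] at h3
    rw [CS.D_zero, actL_apply, actL_apply, actL_apply, CS.D_zero, el_apply, el_apply, el_apply,
      Nat.cast_zero, DGA.sz_zero, DGA.sz_zero, DGA.sz_zero]
    exact h3
  | succ k =>
    have h1 : (DA.A i).sz ((k + 1 : ℕ) : ℤ) ((DA.A i).sg a) = (DA.A i).sz k a := by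
      rw [DGA.sz_sg, show ((k + 1 : ℕ) : ℤ) + 1 = k + 2 by omega, ← DGA.sz_sz,
        (DA.A i).sz_even even_two]
    have h2 : (DA.A i).sg ((DA.A i).sz ((k + 1 : ℕ) : ℤ) a) = (DA.A i).sz k a := by
      rw [DGA.sg_sz, show ((k + 1 : ℕ) : ℤ) + 1 = k + 2 by omega, ← DGA.sz_sz,
        (DA.A i).sz_even even_two]
    have h3 := (M.M ((pt.P i).P (k + 1))).leib
      ((DA.τ (pt.a i (k + 1))).f ((DA.A i).sz ((k + 1 : ℕ) : ℤ) a)) (v (k + 1))
    rw [← (DA.τ _).comm, ← (DA.τ _).sg, h2, DGA.d_sz, map_zsmul, map_zsmul,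
      LinearMap.smul_apply] at h3
    rw [CS.D_succ, actL_apply, actL_apply, actL_apply, actL_apply, CS.D_succ, el_apply, el_apply,
      el_apply, el_apply, dl_act, h1, map_add, map_smul]
    refine (congrArg (fun y => (-1 : ℂ) ^ (k + 1) • y + _) h3).trans ?_
    rw [smul_add, sz_pow_smul (k + 1), smul_smul, neg1_sq, one_smul, add_assoc]

/-- The total, as a module. -/
abbrev totG (M : DM (pull DA ix)) (i : I) : DGM (DA.A i) where
  toGD := (pt.cs M i).Tot
  act := AlgHom.ofLinearMap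
    { toFun := pt.actL M i
      map_add' := fun a b => LinearMap.ext fun v => funext fun k => by
        change pt.actL M i (a + b) v k = pt.actL M i a v k + pt.actL M i b v k
        rw [actL_apply, actL_apply, actL_apply, map_add, map_add, LinearMap.add_apply]
      map_smul' := fun c a => LinearMap.ext fun v => funext fun k => by
        change pt.actL M i (c • a) v k = c • pt.actL M i a v k
        rw [actL_apply, actL_apply, map_smul, map_smul, LinearMap.smul_apply] }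
    (LinearMap.ext fun v => funext fun k => by
      change pt.actL M i 1 v k = v k
      rw [actL_apply, map_one, DGM.act_one])
    fun a b => LinearMap.ext fun v => funext fun k => by
      change pt.actL M i (a * b) v k = pt.actL M i a (pt.actL M i b v) k
      rw [actL_apply, actL_apply, actL_apply, map_mul, DGM.act_mul]
  leib a v := funext fun k => pt.actL_D M i a v k
  act_gr l m a v ha hv k := by
    have h := (M.M ((pt.P i).P k)).act_gr l (m - k) _ (v k)
      ((DA.τ (pt.a i k)).deg l _ ((DA.A i).sz_mem k ha)) (hv k)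
    rw [← add_sub_assoc] at h
    exact h

theorem totG_act (M : DM (pull DA ix)) (i : I) (a : (DA.A i).R) (v : (pt.cs M i).Tot.V) (k : ℕ) :
    (pt.totG M i).act a v k = (M.M ((pt.P i).P k)).act (pt.el DA i k a) (v k) := rfl

/-- The total, as a module over the diagram. -/
def totM (M : DM (pull DA ix)) : DM DA where
  M i := pt.totG M i
  ρ α := ((gfM M).csM (pt.m α)).tot
  ρ_act {i j} α a v := funext fun k => by
    rw [CS.Mor.tot_apply, totG_act, totG_act, CS.Mor.tot_apply, el_apply, el_apply,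
      ← (DA.τ α).sz, ← pt.τ_a_m]
    exact M.ρ_act _ _ _
  ρ_id i v := funext fun k => by
    rw [CS.Mor.tot_apply]
    exact (congrArg (fun φ => (M.ρ φ).f (v k)) (pt.m_id i k)).trans (M.ρ_id _ _)
  ρ_comp α β v := funext fun k => by
    rw [CS.Mor.tot_apply, CS.Mor.tot_apply, CS.Mor.tot_apply]
    exact (congrArg (fun φ => (M.ρ φ).f (v k)) (pt.m_comp α β k)).trans (M.ρ_comp _ _ _)

theorem totM_ρ (M : DM (pull DA ix)) {i j : I} (α : i ⟶ j) (v : (pt.cs M i).Tot.V) (k : ℕ) :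
    (((pt.totM M).ρ α).f v : (pt.cs M j).Tot.V) k = (M.ρ ((pt.m α).f k)).f (v k) :=
  CS.Mor.tot_apply _ _ _

/-- The total of a cochain. -/
def totC {M M' : DM (pull DA ix)} (n : ℤ) (z : DM.Coch M M' n) :
    DM.Coch (pt.totM M) (pt.totM M') n where
  f i := (gcM z).tot (pt.P i)
  deg i := (gcM z).tot_gr (pt.P i)
  act i a v := funext fun k => by
    change sz n ^ k • z.f _ ((M.M _).act (pt.el DA i k a) (v k)) =
      (M'.M _).act (pt.el DA i k ((DA.A i).sz n a)) (sz n ^ k • z.f _ (v k))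
    rw [z.act, map_smul, el_apply, el_apply, ← (DA.τ _).sz, DGA.sz_sz, DGA.sz_sz, add_comm n]
  tr α v := funext fun k => by
    refine (congrArg (fun y => sz n ^ k • z.f _ y) (pt.totM_ρ M α v k)).trans
      (Eq.trans ?_ (pt.totM_ρ M' α _ k).symm)
    rw [z.tr, ← map_smul]
    rfl

theorem totC_apply {M M' : DM (pull DA ix)} (n : ℤ) (z : DM.Coch M M' n) (i : I)
    (v : (pt.cs M i).Tot.V) (k : ℕ) :
    ((pt.totC n z).f i v : (pt.cs M' i).Tot.V) k = sz n ^ k • z.f _ (v k) := rfl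

theorem totC_zero {M M' : DM (pull DA ix)} (z : DM.Coch M M' 0) (i : I)
    (v : (pt.cs M i).Tot.V) (k : ℕ) :
    ((pt.totC 0 z).f i v : (pt.cs M' i).Tot.V) k = z.f _ (v k) := by
  rw [totC_apply, sz_zero, one_pow, one_smul]

/-- The total, as a DG functor. -/
def totD (DA : DD I) : DGF (mdc (pull DA ix)) (mdc DA) :=
  mkF pt.totM pt.totC (fun n a b i v => (gcM a).tot_add (gcM b) (pt.P i) v)
    (fun n c a i v => GCoch.tot_smul c (gcM a) (pt.P i) v)
    (fun M i v => GCoch.tot_one (gfM M) (pt.P i) v)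
    (fun h a b i v => (gcM a).tot_cmp (gcM b) h (pt.P i) v)
    (fun m n a h i v => by
      have h1 := (gcM a).tot_dl h (pt.P i) v
      rw [sz_smul] at h1
      refine Eq.trans (funext fun k => ?_) h1
      refine congrArg (fun y => sz n ^ k • y) ((mdl_f h a _ _).trans ?_)
      rw [← sz_smul]
      rfl)
    (fun _ _ a h => mdl_ne h a)

/-- The levelwise morphism. -/
def csH {M M' : Z0 (mdc (pull DA ix))} (u : M ⟶ M') (i : I) :
    CS.Mor (pt.cs (mo M) i) (pt.cs (mo M') i) :=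
  ⟨fun k => mh u ((pt.P i).P k), fun k l _ x => mh_tr u ((pt.P i).fc k l) x⟩

theorem totD_map {M M' : Z0 (mdc (pull DA ix))} (u : M ⟶ M') (i : I)
    (v : (pt.cs (mo M) i).Tot.V) :
    (mh ((pt.totD DA).z0.map u) i).f v = (pt.csH u i).tot.f v :=
  funext fun k => (pt.totC_zero (mz u) i v k).trans (CS.Mor.tot_apply (pt.csH u i) v k).symm

theorem qis_totD {M M' : Z0 (mdc (pull DA ix))} (u : M ⟶ M')
    (h : ∀ i k, GD.Qis (mh u ((pt.P i).P k))) : mqis DA ((pt.totD DA).z0.map u) := fun i =>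
  qis_congr (fun v => (pt.totD_map u i v).symm) ((pt.csH u i).qis_tot (h i))

end PT

end

end Vale.Agent.P286EX
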