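import Vale.Agent.P286EXI.Tm
import Vale.Agent.P286EX7.Hq

/-!
# The maps from a free family, as a module over the endomorphisms
-/

set_option linter.all false

namespace Vale.Agent.P286EX

open CategoryTheory Vale.Agent.P286 Vale.Agent.P286.St Vale.Agent.P286.H847
  Vale.Agent.P286.H353 Vale.Agent.P286.H710 Vale.Agent.P286.H697 Vale.Agent.P286.H761
open Vale.Agent.P286EK (DGA AHom DD DM mdc mqis mh mo mz mkF mdl_f mdl_ne)

noncomputable section

variable {T : TSite} {I : Type} [SmallCategory I]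

/-- A free twisted family, strictly compatible with base change, with a right action. -/
structure QX (ix : T.C ⥤ I) (A : DD I) : Type 1 where
  Q : OT T
  σ : ∀ X, Sg (Q.F X)
  t_s : ∀ {X Y : T.C} (φ : X ⟶ Y) x, Q.t φ ((σ X).s x) = (σ Y).s (Q.t φ x)
  fr : ∀ X, Fr (Q.F X)
  bas : ∀ {X Y : T.C}, (X ⟶ Y) → Module.Basis (fr X).S (Om ℂ (T.R Y)) (Q.F Y).M.V
  bas_eq : ∀ {X Y : T.C} (φ : X ⟶ Y) γ, bas φ γ = Q.t φ ((fr X).e γ)
  bas_ind : ∀ {X Y : T.C} (φ : X ⟶ Y) m, (Q.F Y).M.gr m ≤ Submodule.span ℂ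
    {y | ∃ (p : ℕ) (γ : (fr X).S), (p : ℤ) + (fr X).dg γ = m ∧
      ∃ w ∈ Om.gr ℂ (T.R Y) p, w • bas φ γ = y}
  ra : ∀ X, (A.A (ix.obj X)).R →ₗ[ℂ] (Q.F X).M.V →ₗ[Om ℂ (T.R X)] (Q.F X).M.V
  ra_one : ∀ X p, ra X 1 p = p
  ra_mul : ∀ X a b p, ra X (a * b) p = ra X b (ra X a p)
  ra_d : ∀ X a p, (Q.F X).M.d (ra X a p) =
    ra X a ((Q.F X).M.d p) + ra X ((A.A _).d a) ((σ X).s p)
  ra_s : ∀ X a p, (σ X).s (ra X a p) = ra X ((A.A _).sg a) ((σ X).s p)
  ra_gr : ∀ X (n : ℤ) a, a ∈ (A.A _).gr n → ra X a ∈ hmg (Q.F X) (Q.F X) n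
  ra_t : ∀ {X Y : T.C} (φ : X ⟶ Y) a p,
    Q.t φ (ra X a p) = ra Y ((A.τ (ix.map φ)).f a) (Q.t φ p)

namespace QX

variable {ix : T.C ⥤ I} {A : DD I} (q : QX ix A) {X Y Z : T.C}

/-- The basis obtained by base change. -/
def frT (φ : X ⟶ Y) : Fr (q.Q.F Y) where
  S := (q.fr X).S
  e := q.bas φ
  dg := (q.fr X).dg
  hi := (q.fr X).hi
  L := (q.fr X).L
  bd := (q.fr X).bd
  e_gr γ := by
    rw [q.bas_eq]
    exact q.Q.t_gr φ _ _ ((q.fr X).e_gr γ)
  ind := q.bas_ind φ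

/-- A linear map is determined by its values on the image of a transition map. -/
theorem ext_eq (φ : X ⟶ Y) {M : Type} [AddCommGroup M] [Module (Om ℂ (T.R Y)) M]
    {η η' : (q.Q.F Y).M.V →ₗ[Om ℂ (T.R Y)] M} (h : ∀ x, η (q.Q.t φ x) = η' (q.Q.t φ x)) :
    η = η' := (q.bas φ).ext fun γ => by rw [q.bas_eq, h]

/-- Induction along a transition map. -/
theorem t_ind (φ : X ⟶ Y) {p : (q.Q.F Y).M.V → Prop} (h0 : p 0)
    (h1 : ∀ (w : Om ℂ (T.R Y)) x, p (w • q.Q.t φ x)) (h2 : ∀ x y, p x → p y → p (x + y))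
    (y : (q.Q.F Y).M.V) : p y := by
  rw [← (q.bas φ).linearCombination_repr y, Finsupp.linearCombination_apply, Finsupp.sum]
  refine Finset.sum_induction _ p h2 h0 fun γ _ => ?_
  rw [q.bas_eq]
  exact h1 _ _

/-- The linear extension of a semilinear map. -/
def extG (φ : X ⟶ Y) (M : OmM (T.R Y)) (g : (q.Q.F X).M.V → M.M.V) :
    (q.Q.F Y).M.V →ₗ[Om ℂ (T.R Y)] M.M.V := (q.frT φ).mk' fun γ => g ((q.fr X).e γ)

theorem extG_e (φ : X ⟶ Y) (M : OmM (T.R Y)) (g : (q.Q.F X).M.V → M.M.V) (γ : (q.fr X).S) :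
    q.extG φ M g (q.Q.t φ ((q.fr X).e γ)) = g ((q.fr X).e γ) := by
  rw [← q.bas_eq]
  exact (q.frT φ).mk'_e _ γ

theorem extG_t (φ : X ⟶ Y) (M : OmM (T.R Y)) (g : (q.Q.F X).M.V → M.M.V)
    (ha : ∀ x y, g (x + y) = g x + g y)
    (hg : ∀ (w : Om ℂ (T.R X)) x, g (w • x) = Om.pb (T.f φ) w • g x) (x : (q.Q.F X).M.V) :
    q.extG φ M g (q.Q.t φ x) = g x := by
  have h0 : g 0 = 0 := by
    have h := ha 0 0
    rw [add_zero] at h
    exact left_eq_add.1 h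
  rw [← (q.fr X).e.linearCombination_repr x, Finsupp.linearCombination_apply, Finsupp.sum]
  refine Finset.sum_induction _ (fun x => q.extG φ M g (q.Q.t φ x) = g x) (fun x y hx hy => ?_)
    ?_ fun γ _ => ?_
  · rw [map_add, map_add, hx, hy, ha]
  · rw [map_zero, map_zero, h0]
  · rw [q.Q.t_smul, map_smul, extG_e, hg]

theorem extG_mem (φ : X ⟶ Y) (M : OmM (T.R Y)) (g : (q.Q.F X).M.V → M.M.V) {n : ℤ}
    (hg : ∀ m x, x ∈ (q.Q.F X).M.gr m → g x ∈ M.M.gr (m + n)) :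
    q.extG φ M g ∈ hmg (q.Q.F Y) M n := (q.frT φ).mem_hmg fun γ => by
  rw [extG, Fr.mk'_e]
  exact hg _ _ ((q.fr X).e_gr γ)

variable (F F' : OT T)

/-- The complex of maps over `X`. -/
abbrev Φ (X : T.C) : GD := Hm (q.σ X) (F.F X)

theorem extG_tr (φ : X ⟶ Y) (η : (q.Φ F X).V) (x : (q.Q.F X).M.V) :
    q.extG φ (F.F Y) (fun x => F.t φ (η x)) (q.Q.t φ x) = F.t φ (η x) :=
  q.extG_t φ _ (fun x => F.t φ (η x)) (fun x y => by rw [map_add, map_add])
    (fun w x => by rw [map_smul, F.t_smul]) x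

/-- The extension of a map along an arrow. -/
def ext (φ : X ⟶ Y) : GD.Hom (q.Φ F X) (q.Φ F Y) where
  f :=
    { toFun := fun η => q.extG φ (F.F Y) fun x => F.t φ (η x)
      map_add' := fun η η' => q.ext_eq φ fun x => by
        rw [LinearMap.add_apply, extG_tr, extG_tr, extG_tr, LinearMap.add_apply, map_add]
      map_smul' := fun c η => q.ext_eq φ fun x => by
        rw [LinearMap.smul_apply, extG_tr, extG_tr, LinearMap.smul_apply, map_smul]
        rfl }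
  comm η := q.ext_eq φ fun x => by
    change q.extG φ (F.F Y) (fun x => F.t φ (hmd (q.σ X) (F.F X) η x)) (q.Q.t φ x) =
      hmd (q.σ Y) (F.F Y) (q.extG φ (F.F Y) fun x => F.t φ (η x)) (q.Q.t φ x)
    rw [extG_tr, hmd_apply, hmd_apply, ← q.t_s, extG_tr, F.t_d, q.Q.t_d, map_sub, map_sub,
      map_smul, extG_tr, extG_tr]
    abel
  deg m η h := q.extG_mem φ (F.F Y) (fun x => F.t φ (η x)) (n := m)
    fun k x hx => F.t_gr φ _ _ (h k x hx)

theorem ext_t (φ : X ⟶ Y) (η : (q.Φ F X).V) (x : (q.Q.F X).M.V) :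
    (q.ext F φ).f η (q.Q.t φ x) = F.t φ (η x) := q.extG_tr F φ η x

theorem ext_id (η : (q.Φ F X).V) : (q.ext F (𝟙 X)).f η = η :=
  q.ext_eq (𝟙 X) fun x => by rw [ext_t, F.t_id, q.Q.t_id]

theorem ext_comp (φ : X ⟶ Y) (ψ : Y ⟶ Z) (η : (q.Φ F X).V) :
    (q.ext F (φ ≫ ψ)).f η = (q.ext F ψ).f ((q.ext F φ).f η) :=
  q.ext_eq (φ ≫ ψ) fun x => by rw [ext_t, q.Q.t_comp, ext_t, ext_t, F.t_comp]

/-- The complex of maps over `X`, as a module. -/
abbrev hmG (X : T.C) : P286EK.DGM (A.A (ix.obj X)) where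
  toGD := q.Φ F X
  act := AlgHom.ofLinearMap
    { toFun := fun a =>
        { toFun := fun η => η ∘ₗ q.ra X a
          map_add' := fun _ _ => rfl
          map_smul' := fun _ _ => rfl }
      map_add' := fun a b => LinearMap.ext fun η => LinearMap.ext fun x => by
        change η (q.ra X (a + b) x) = η (q.ra X a x) + η (q.ra X b x)
        rw [map_add, LinearMap.add_apply, map_add]
      map_smul' := fun c a => LinearMap.ext fun η => LinearMap.ext fun x => by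
        change η (q.ra X (c • a) x) = c • η (q.ra X a x)
        rw [map_smul, LinearMap.smul_apply, map_csmul] }
    (LinearMap.ext fun η => LinearMap.ext fun x => congrArg η (q.ra_one X x))
    fun a b => LinearMap.ext fun η => LinearMap.ext fun x => congrArg η (q.ra_mul X a b x)
  leib a η := LinearMap.ext fun x => by
    change (F.F X).M.d (η (q.ra X a ((q.σ X).s x))) - η (q.ra X a ((q.Q.F X).M.d ((q.σ X).s x))) =
      η (q.ra X ((A.A _).d a) x) + ((F.F X).M.d (η ((q.σ X).s (q.ra X ((A.A _).sg a) x))) -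
        η ((q.Q.F X).M.d ((q.σ X).s (q.ra X ((A.A _).sg a) x))))
    rw [q.ra_s, DGA.sg_sg, q.ra_d, (q.σ X).s_s, map_add]
    abel
  act_gr n m a η ha h := Hm.comp_mem (q.ra_gr X n a ha) h

theorem hmG_act (a : (A.A (ix.obj X)).R) (η : (q.Φ F X).V) (x : (q.Q.F X).M.V) :
    (q.hmG F X).act a η x = η (q.ra X a x) := rfl

/-- The complexes of maps, as a module over the pulled back diagram. -/
abbrev hmM : DM (pull A ix) where
  M := q.hmG F
  ρ := q.ext F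
  ρ_act φ a η := q.ext_eq φ fun x => by
    change (q.ext F φ).f (η ∘ₗ q.ra _ a) (q.Q.t φ x) =
      (q.ext F φ).f η (q.ra _ ((A.τ (ix.map φ)).f a) (q.Q.t φ x))
    rw [← q.ra_t, ext_t, ext_t]
    rfl
  ρ_id _ := q.ext_id F
  ρ_comp := q.ext_comp F

theorem t_sz (φ : X ⟶ Y) (n : ℤ) (x : (q.Q.F X).M.V) :
    q.Q.t φ ((q.σ X).sz n x) = (q.σ Y).sz n (q.Q.t φ x) := by
  by_cases h : Even n
  · rw [Sg.sz_even _ h, Sg.sz_even _ h]
  · rw [Sg.sz_odd _ h, Sg.sz_odd _ h, q.t_s]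

theorem ra_sz (n : ℤ) (a : (A.A (ix.obj X)).R) (x : (q.Q.F X).M.V) :
    (q.σ X).sz n (q.ra X a x) = q.ra X ((A.A _).sz n a) ((q.σ X).sz n x) := by
  by_cases h : Even n
  · rw [Sg.sz_even _ h, Sg.sz_even _ h, DGA.sz_even _ h]
  · rw [Sg.sz_odd _ h, Sg.sz_odd _ h, DGA.sz_odd _ h, q.ra_s]

variable {F F'}

/-- The composition with a cochain. -/
def hc {n : ℤ} (u : (otF T).P F F' n) (X : T.C) : (q.Φ F X).V →ₗ[ℂ] (q.Φ F' X).V :=
  Hm.postC (q.σ X) n (u.1 X) (OT.IsCo.smul u.2 X)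

theorem hc_apply {n : ℤ} (u : (otF T).P F F' n) (η : (q.Φ F X).V) (x : (q.Q.F X).M.V) :
    q.hc u X η x = u.1 X (η ((q.σ X).sz n x)) := rfl

/-- The cochain of modules. -/
def hmC (n : ℤ) (u : (otF T).P F F' n) : DM.Coch (q.hmM F) (q.hmM F') n where
  f := q.hc u
  deg X := Hm.postC_mem _ n _ _ (OT.IsCo.deg u.2 X)
  act X a η := LinearMap.ext fun x => by
    change u.1 X (η (q.ra X a ((q.σ X).sz n x))) =
      u.1 X (η ((q.σ X).sz n (q.ra X ((A.A _).sz n a) x)))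
    rw [ra_sz, DGA.sz_sz, DGA.sz_even _ ⟨n, rfl⟩]
  tr {X Y} φ η := q.ext_eq φ fun x => by
    change u.1 Y ((q.ext F φ).f η ((q.σ Y).sz n (q.Q.t φ x))) =
      (q.ext F' φ).f (q.hc u X η) (q.Q.t φ x)
    rw [← t_sz, ext_t, ext_t, hc_apply]
    exact OT.IsCo.tr u.2 φ _

/-- The DG functor of maps from the family. -/
def hmD : DGF (otc T) (mdc (pull A ix)) :=
  mkF q.hmM q.hmC (fun _ _ _ _ _ => rfl) (fun _ _ _ _ _ => rfl)
    (fun F X η => LinearMap.ext fun x => congrArg η ((q.σ X).sz_zero x))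
    (fun {F F' F'' m n p} h u v X η => LinearMap.ext fun x => by
      change v.1 X (u.1 X (η ((q.σ X).sz p x))) =
        v.1 X (u.1 X (η ((q.σ X).sz m ((q.σ X).sz n x))))
      rw [Sg.sz_sz, h])
    (fun m n u h X η => by
      subst h
      exact Hm.d_postC (q.σ X) m (u.1 X) _ (OT.IsCo.smul u.2 X)
        (OT.IsCo.smul ((otF T).dif m (m + 1) u).2 X) ((otF T).dif_f rfl u X) η)
    (fun _ _ u h => (otF T).dif_ne h u)

theorem hmD_obj (F : OT T) : q.hmD.obj F = q.hmM F := rfl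

/-- The composition with a closed morphism. -/
def hp {F F' : Z0 (otc T)} (u : F ⟶ F') (X : T.C) : GD.Hom (q.Φ F X) (q.Φ F' X) :=
  Hm.post (q.σ X) ((otF T).hom u X) fun w x =>
    (OT.IsCo.smul (zf u : (otF T).P F F' 0).2 X w x).trans (by rw [Om.sgz_zero]; rfl)

theorem hp_apply {F F' : Z0 (otc T)} (u : F ⟶ F') (X : T.C) (η : (q.Φ F X).V)
    (x : (q.Q.F X).M.V) : (q.hp u X).f η x = ((otF T).hom u X).f (η x) := rfl

theorem hmD_map {F F' : Z0 (otc T)} (u : F ⟶ F') (X : T.C) (η : (q.Φ F X).V) :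
    (mh (q.hmD.z0.map u) X).f η = (q.hp u X).f η := LinearMap.ext fun x =>
  congrArg (fun y => ((otF T).hom u X).f (η y)) ((q.σ X).sz_zero x)

variable (pt : PT ix)

/-- The levels. -/
abbrev cs (F : OT T) (i : I) : CS := pt.cs (q.hmM F) i

/-- The total of the complexes of maps. -/
abbrev xiM (F : OT T) : DM A := pt.totM (q.hmM F)

/-- The total of a cochain. -/
abbrev xiC (n : ℤ) (u : (otF T).P F F' n) : DM.Coch (q.xiM pt F) (q.xiM pt F') n :=
  pt.totC n (q.hmC n u)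

/-- The DG functor `Ξ`. -/
def xiD : DGF (otc T) (mdc A) := q.hmD.comp (pt.totD A)

theorem xiD_obj (F : OT T) : (q.xiD pt).obj F = q.xiM pt F := rfl

theorem xiD_map (n : ℤ) (u : (otF T).P F F' n) :
    (q.xiD pt).map (X := F) (Y := F') n u = q.xiC pt n u := rfl

theorem xiC_apply (n : ℤ) (u : (otF T).P F F' n) (i : I) (v : (q.cs pt F i).Tot.V) (k : ℕ)
    (x : (q.Q.F ((pt.P i).P k)).M.V) :
    ((q.xiC pt n u).f i v : (q.cs pt F' i).Tot.V) k x =
      sz n ^ k • u.1 _ (v k ((q.σ _).sz n x)) := rfl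

/-- The levelwise morphism. -/
def csH {F F' : Z0 (otc T)} (u : F ⟶ F') (i : I) : CS.Mor (q.cs pt F i) (q.cs pt F' i) :=
  ⟨fun k => q.hp u ((pt.P i).P k), fun k l _ η => ((q.hmD_map u _ _).symm.trans
    (P286EK.mh_tr (q.hmD.z0.map u) ((pt.P i).fc k l) η)).trans
      (congrArg (q.ext F' ((pt.P i).fc k l)).f (q.hmD_map u _ η))⟩

theorem csH_f {F F' : Z0 (otc T)} (u : F ⟶ F') (i : I) (k : ℕ) :
    (q.csH pt u i).f k = q.hp u ((pt.P i).P k) := rfl

theorem xiD_z0 {F F' : Z0 (otc T)} (u : F ⟶ F') (i : I) (v : (q.cs pt F i).Tot.V) :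
    (mh ((q.xiD pt).z0.map u) i).f v = (q.csH pt u i).tot.f v := funext fun k =>
  ((pt.totC_zero (mz (q.hmD.z0.map u)) i v k).trans (q.hmD_map u _ (v k))).trans
    (CS.Mor.tot_apply (q.csH pt u i) v k).symm

/-- Levelwise quasi-isomorphisms of the complexes of maps give quasi-isomorphisms. -/
theorem qis_xiD {F F' : Z0 (otc T)} (u : F ⟶ F') (i : I)
    (h : ∀ k, GD.Qis (q.hp u ((pt.P i).P k))) : GD.Qis (mh ((q.xiD pt).z0.map u) i) :=
  P286EK.qis_congr (fun v => (q.xiD_z0 pt u i v).symm) ((q.csH pt u i).qis_tot h)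

end QX

end

end Vale.Agent.P286EX
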