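import Vale.Agent.P286EXI.Hx
import Vale.Agent.P286EX7.P0
import Vale.Agent.P286EX3.Pi
import Vale.Agent.P286EX9.Ctr
import Vale.Agent.P286EXU.Rey

/-!
# The functor `Ξ` of the generator
-/

set_option linter.all false

namespace Vale.Agent.P286EX

open CategoryTheory TensorProduct Vale.Agent.P286 Vale.Agent.P286.St Vale.Agent.P286.H847
  Vale.Agent.P286.H353 Vale.Agent.P286.H710 Vale.Agent.P286.H697 Vale.Agent.P286.H761
  Vale.Agent.P286E
open Vale.Agent.P286EK (DGA DD DM mdc mqis mh mo mz)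
open Vale.Agent.P286.H389 (outM outM_tmul)

noncomputable section

section Gen

variable {A : Type} [CommRing A] [Algebra ℂ A] {V W : Type} [AddCommGroup V] [Module A V]
  [AddCommGroup W] [Module A W]

theorem bc_szT (u : V →ₗ[A] W) (x : DR ℂ A V) : u.baseChange (Om ℂ A) x = szT 0 u x := by
  induction x using DR.induction with
  | zero => simp
  | tmul w x => rw [szT_tmul, Om.sgz_zero, LinearMap.baseChange_tmul]
  | add x y hx hy => rw [map_add, map_add, hx, hy]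

theorem out_lin (η : DR ℂ A V →ₗ[Om ℂ A] DR ℂ A W) (x : DR ℂ A V) :
    outM A W (η x) = outM A W (η ((1 : Om ℂ A) ⊗ₜ[A] outM A V x)) := by
  induction x using DR.induction with
  | zero => simp
  | tmul w x =>
    have h1 : w ⊗ₜ[A] x = w • ((1 : Om ℂ A) ⊗ₜ[A] x) := by rw [smul_tmul', smul_eq_mul, mul_one]
    rw [h1, map_smul, outM_smul, outM_smul, outM_one, tmul_smul,
      LinearMap.map_smul_of_tower, map_smul]
  | add x y hx hy => rw [map_add, map_add, hx, hy, map_add, tmul_add, map_add, map_add]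

theorem one_tmul_mem (K : H697.DGM A) {m : ℤ} {p : K.M.V} (h : p ∈ K.M.gr m) :
    (1 : Om ℂ A) ⊗ₜ[A] p ∈ K.gr m :=
  K.tmul_mem (p := 0) (by simp) (by simpa using Om.alg_mem (k := ℂ) (1 : A)) h

/-- The evaluation at a cycle of degree `0`, followed by the projection to the forms of degree
`0`. -/
def pev (b : DB ℂ A) {K : H697.DGM A} (σ : Sg (drO b K)) (L : H697.DGM A) (p : K.M.V)
    (h0 : p ∈ K.M.gr 0) (hd : K.M.d p = 0) : GD.Hom (Hm σ (drO b L)) L.M where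
  f :=
    { toFun := fun η => (pi0 b L).f (η ((1 : Om ℂ A) ⊗ₜ[A] p))
      map_add' := fun _ _ => map_add (pi0 b L).f _ _
      map_smul' := fun c _ => map_smul (pi0 b L).f c _ }
  comm η := by
    have h1 : σ.s ((1 : Om ℂ A) ⊗ₜ[A] p) = (1 : Om ℂ A) ⊗ₜ[A] p := by
      rw [σ.s_gr 0 _ (one_tmul_mem K h0)]; simp
    have h2 : outM A K.M.V ((drO b K).M.d ((1 : Om ℂ A) ⊗ₜ[A] p)) = 0 :=
      ((pi0 b K).comm _).trans (by rw [pi0_one, hd])
    have h3 : (pi0 b L).f (η ((drO b K).M.d ((1 : Om ℂ A) ⊗ₜ[A] p))) = 0 :=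
      (out_lin η _).trans (by rw [h2, tmul_zero, map_zero, map_zero])
    change (pi0 b L).f (hmd σ (drO b L) η ((1 : Om ℂ A) ⊗ₜ[A] p)) = L.M.d ((pi0 b L).f _)
    rw [hmd_apply, h1, map_sub, h3, sub_zero]
    exact (pi0 b L).comm _
  deg m η h := (pi0 b L).deg m _ (hmg_mem h (zero_add m).symm (one_tmul_mem K h0))

theorem pev_apply (b : DB ℂ A) {K : H697.DGM A} (σ : Sg (drO b K)) (L : H697.DGM A) (p : K.M.V)
    (h0 : p ∈ K.M.gr 0) (hd : K.M.d p = 0) (η : (Hm σ (drO b L)).V) :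
    (pev b σ L p h0 hd).f η = outM A L.M.V (η ((1 : Om ℂ A) ⊗ₜ[A] p)) := rfl

end Gen

section HGs

variable {T : TSite} {S : GS T} (H : HG S) {X Y : T.C}

/-- The operator `E` as an equivalence. -/
def HG.Eq (φ : X ⟶ Y) : H.V Y ≃ₗ[Om ℂ (T.R Y)] H.V Y where
  toFun := H.E φ
  map_add' := map_add _
  map_smul' := H.E_smul φ
  invFun := H.Ei φ
  left_inv := H.Ei_E φ
  right_inv := H.E_Ei φ

theorem HG.gt_one' (φ : X ⟶ Y) (x : (H.K X).M.V) :
    H.gt φ ((1 : Om ℂ (T.R X)) ⊗ₜ[T.R X] x) = H.E φ (1 ⊗ₜ[T.R Y] (H.t φ).f x) := by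
  rw [H.gt_apply, H.P_tmul, map_one]

theorem HG.gt_szT (φ : X ⟶ Y) (n : ℤ) (u : (H.K X).M.V →ₗ[T.R X] (H.K X).M.V)
    (u' : (H.K Y).M.V →ₗ[T.R Y] (H.K Y).M.V) (h : ∀ x, (H.t φ).f (u x) = u' ((H.t φ).f x))
    (hi : ∀ a x, u' (H.i Y a x) = (n.negOnePow : ℤ) • H.i Y a (u' x)) (x : H.V X) :
    H.gt φ (szT n u x) = szT n u' (H.gt φ x) :=
  (congrArg (H.E φ) (pbT_szT (T.f φ) _ (H.t_smul φ) _ (H.t_smul φ) n u u' h x).symm).trans
    (szT_eE (S.θ_mem φ) n _ _ hi _).symm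

/-- The image of a basis under `E`. -/
def HG.frE (φ : X ⟶ Y) (B : Fr (drO (bT T Y) (H.K Y))) :
    Module.Basis B.S (Om ℂ (T.R Y)) (H.V Y) := B.e.map (H.Eq φ)

theorem HG.frE_apply (φ : X ⟶ Y) (B : Fr (drO (bT T Y) (H.K Y))) (γ : B.S) :
    H.frE φ B γ = H.E φ (B.e γ) := rfl

theorem HG.frE_ind (φ : X ⟶ Y) (B : Fr (drO (bT T Y) (H.K Y))) (m : ℤ) :
    (H.K Y).gr m ≤ Submodule.span ℂ {y | ∃ (p : ℕ) (γ : B.S), (p : ℤ) + B.dg γ = m ∧
      ∃ w ∈ Om.gr ℂ (T.R Y) p, w • H.frE φ B γ = y} := fun x hx => by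
  have h := B.ind m (H.Ei_mem φ hx)
  rw [← H.E_Ei φ x]
  generalize H.Ei φ x = y at h
  induction h using Submodule.span_induction with
  | mem y hy =>
    obtain ⟨p, γ, h1, w, hw, rfl⟩ := hy
    exact Submodule.subset_span ⟨p, γ, h1, w, hw, (H.E_smul φ w _).symm⟩
  | zero => rw [map_zero]; exact zero_mem _
  | add y z _ _ hy hz => rw [map_add]; exact add_mem hy hz
  | smul c y _ hy => rw [map_smul]; exact Submodule.smul_mem _ c hy

theorem sgT_szT {A V W : Type} [CommRing A] [Algebra ℂ A] [AddCommGroup V] [Module A V]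
    [AddCommGroup W] [Module A W] (u : V →ₗ[A] W) (x : DR ℂ A V) : sgT u x = szT 1 u x := by
  induction x using DR.induction with
  | zero => simp
  | tmul w p => rw [sgT_tmul, szT_tmul, Om.sgz_odd (by decide)]
  | add x y hx hy => simp only [map_add, hx, hy]

end HGs

variable {I : Type} [SmallCategory I] {D : CD I} {G : Grp} {s : ℂ} {K : GK G} {xd : XD D}
  {U : Rep K}

variable (K xd s) in
/-- The powers of the universal points. -/
abbrev ptQ : PT (ixQ D G s) where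
  P i := (ptS K xd s i).co
  a i _ := 𝟙 i
  a_fc i k l := (Category.id_comp _).trans ((ptS K xd s i).fc_α k l)
  m α := (ptM K xd s α).co
  a_m α k := (Category.id_comp _).trans ((ptM_α K xd α k).trans (Category.comp_id _).symm)
  m_id := ptM_id K xd
  m_comp := ptM_comp K xd

namespace PD

variable (P : PD K xd s U)

/-- The de Rham complexes of the generator. -/
abbrev Qt : OT (QS D G s) where
  F := P.Q
  t φ := P.P.gt φ
  t_gr := P.P.gau.t_gr
  t_d := P.P.gau.t_d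
  t_smul := P.P.gau.t_smul
  t_id := P.P.gau.t_id
  t_comp := P.P.gau.t_comp

theorem Qt_eq : P.Qt = P.P.gau := rfl

/-- The right action on the de Rham complex. -/
def raQ (X : QO D) : (P.A.A X.i).R →ₗ[ℂ] (P.Q X).M.V →ₗ[Om ℂ (RQ G s X)] (P.Q X).M.V where
  toFun a := (P.ra X a).baseChange (Om ℂ (RQ G s X))
  map_add' a b := by rw [map_add, LinearMap.baseChange_add]
  map_smul' c a := LinearMap.ext fun x => by
    induction x using DR.induction with
    | zero => simp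
    | tmul w x =>
      rw [map_smul, RingHom.id_apply, LinearMap.smul_apply, LinearMap.baseChange_tmul,
        LinearMap.baseChange_tmul, LinearMap.smul_apply,
        ← algebraMap_smul (RQ G s X) c (P.ra X a x), ← smul_tmul, algebraMap_smul, smul_tmul']
    | add x y hx hy => rw [map_add, map_add, hx, hy]

theorem raQ_tmul (X : QO D) (a : (P.A.A X.i).R) (w : Om ℂ (RQ G s X)) (p : (P.P.K X).M.V) :
    P.raQ X a (w ⊗ₜ[RQ G s X] p) = w ⊗ₜ[RQ G s X] P.ra X a p := rfl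

theorem raQ_szT (X : QO D) (a : (P.A.A X.i).R) (x : (P.Q X).M.V) :
    P.raQ X a x = szT 0 (P.ra X a) x := bc_szT _ x

theorem sg_ra (X : QO D) (a : (P.A.A X.i).R) (p : (P.P.K X).M.V) :
    P.sg X (P.ra X a p) = P.ra X ((P.A.A X.i).sg a) (P.sg X p) := (P.rho X).sg_ra a p

theorem t_sg {X Y : QO D} (u : Ar G s X Y) (p : (P.P.K X).M.V) :
    (P.P.t u).f (P.sg X p) = P.sg Y ((P.P.t u).f p) := P.bd.t_sg u p

theorem sg_i (X : QO D) (a : Fin 3) (p : (P.P.K X).M.V) :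
    P.sg X (P.P.i X a p) = - P.P.i X a (P.sg X p) := P.bd.sg_i X a p

theorem raQ_d (X : QO D) (a : (P.A.A X.i).R) (x : (P.Q X).M.V) :
    (P.Q X).M.d (P.raQ X a x) =
      P.raQ X a ((P.Q X).M.d x) + P.raQ X ((P.A.A X.i).d a) ((P.σ X).s x) := by
  have h1 := DGM.lT_dR (bT (QS D G s) X) (P.P.K X).C (P.P.K X).C (P.ra X a) (P.ra_act X a) x
  have h2 : sgT (P.P.K X).dA (P.raQ X a x) =
      P.raQ X a (sgT (P.P.K X).dA x) + P.raQ X ((P.A.A X.i).d a) (sgT (P.sg X) x) := by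
    induction x using DR.induction with
    | zero => simp
    | tmul w p =>
      rw [raQ_tmul, sgT_tmul, sgT_tmul, sgT_tmul, raQ_tmul, raQ_tmul, ← tmul_add]
      exact congrArg _ (P.ra_d X a p)
    | add x y hx hy =>
      clear h1
      simp only [map_add]
      rw [hx (DGM.lT_dR _ _ _ _ (P.ra_act X a) x), hy (DGM.lT_dR _ _ _ _ (P.ra_act X a) y)]
      abel
  change dR _ (P.P.K X).C (P.raQ X a x) + sgT (P.P.K X).dA (P.raQ X a x) =
    P.raQ X a (dR _ (P.P.K X).C x + sgT (P.P.K X).dA x) + P.raQ X _ (sgT (P.sg X) x)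
  rw [h2, map_add, add_assoc]
  exact congrArg (· + _) h1.symm

theorem gt_raQ {X Y : QO D} (u : Ar G s X Y) (a : (P.A.A X.i).R) (x : (P.Q X).M.V) :
    P.P.gt u (P.raQ X a x) = P.raQ Y ((P.A.τ (QM.α u)).f a) (P.P.gt u x) :=
  ((congrArg (P.P.gt u) (P.raQ_szT X a x)).trans (P.P.gt_szT u 0 _ _ (P.ra_t u a)
    (fun b p => (P.ra_i Y _ b p).trans (one_smul ℤ _).symm) x)).trans (P.raQ_szT Y _ _).symm

theorem gt_s {X Y : QO D} (u : Ar G s X Y) (x : (P.Q X).M.V) :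
    P.P.gt u ((P.σ X).s x) = (P.σ Y).s (P.P.gt u x) :=
  ((congrArg (P.P.gt u) (sgT_szT (P.sg X) x)).trans (P.P.gt_szT u 1 _ _ (P.t_sg u)
    (fun b p => (P.sg_i Y b p).trans (neg_one_smul ℤ _).symm) x)).trans (sgT_szT (P.sg Y) _).symm

theorem raQ_gr (X : QO D) (n : ℤ) (a : (P.A.A X.i).R) (ha : a ∈ (P.A.A X.i).gr n) :
    P.raQ X a ∈ hmg (P.Q X) (P.Q X) n := fun m x hx => by
  induction hx using (P.P.K X).gr_ind with
  | zero => rw [map_zero]; exact zero_mem _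
  | tmul p i h w hw x hx =>
    exact (P.P.K X).tmul_mem (i := i + n) (by omega) hw (P.ra_gr X i n x a hx ha)
  | add x y _ _ hx hy => rw [map_add]; exact add_mem hx hy

/-- The basis of the target of a transition map. -/
def eT {X Y : QO D} (u : Ar G s X Y) :
    Module.Basis (Finset (Fin 3) × BI U.n) (RQ G s Y) (P.P.K Y).M.V := (P.bc u).choose

theorem eT_eq {X Y : QO D} (u : Ar G s X Y) (γ : Finset (Fin 3) × BI U.n) :
    P.eT u γ = (P.P.t u).f (P.e X γ) := (P.bc u).choose_spec γ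

theorem eT_gr {X Y : QO D} (u : Ar G s X Y) (γ : Finset (Fin 3) × BI U.n) :
    P.eT u γ ∈ (P.P.K Y).M.gr (dg γ) := by
  rw [eT_eq]
  exact (P.P.t u).deg _ _ (P.e_gr' X γ)

/-- The basis of the de Rham complex of the target. -/
def frP {X Y : QO D} (u : Ar G s X Y) : Fr (P.Q Y) :=
  Fr.dr _ _ (P.eT u) dg 1 5 dg_bd (P.eT_gr u) (span_of_int _ (P.int Y) (P.eT u) dg (P.eT_gr u))

theorem frP_e {X Y : QO D} (u : Ar G s X Y) (γ : Finset (Fin 3) × BI U.n) :
    (P.frP u).e γ = (1 : Om ℂ (RQ G s Y)) ⊗ₜ[RQ G s Y] P.eT u γ := Fr.dr_e ..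

/-- The basis of the de Rham complex of the target. -/
def bQ {X Y : QO D} (u : Ar G s X Y) :
    Module.Basis (Finset (Fin 3) × BI U.n) (Om ℂ (RQ G s Y)) (P.Q Y).M.V := P.P.frE u (P.frP u)

theorem bQ_eq {X Y : QO D} (u : Ar G s X Y) (γ : Finset (Fin 3) × BI U.n) :
    P.bQ u γ = P.P.gt u ((P.fr X).e γ) := by
  have h1 : P.bQ u γ = P.P.E u ((P.frP u).e γ) := P.P.frE_apply u (P.frP u) γ
  have h2 : (P.frP u).e γ = (1 : Om ℂ (RQ G s Y)) ⊗ₜ[RQ G s Y] (P.P.t u).f (P.e X γ) :=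
    (P.frP_e u γ).trans (by rw [P.eT_eq])
  have h3 := P.P.gt_one' u (P.e X γ)
  have h4 := congrArg (P.P.gt u) (P.fr_e X γ)
  exact (h1.trans (congrArg (P.P.E u) h2)).trans (h3.symm.trans h4.symm)

set_option maxRecDepth 4000 in
theorem bQ_ind {X Y : QO D} (u : Ar G s X Y) (m : ℤ) : (P.Q Y).M.gr m ≤ Submodule.span ℂ
    {y | ∃ (p : ℕ) (γ : Finset (Fin 3) × BI U.n), (p : ℤ) + dg γ = m ∧
      ∃ w ∈ Om.gr ℂ (RQ G s Y) p, w • P.bQ u γ = y} := P.P.frE_ind u (P.frP u) m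

set_option maxRecDepth 4000 in
/-- The generator, as a free family with a right action. -/
abbrev xq : QX (ixQ D G s) P.A where
  Q := P.Qt
  σ := P.σ
  t_s := P.gt_s
  fr := P.fr
  bas := P.bQ
  bas_eq := P.bQ_eq
  bas_ind := P.bQ_ind
  ra := P.raQ
  ra_one X x := by
    induction x using DR.induction with
    | zero => simp
    | tmul w p => exact congrArg (fun y => w ⊗ₜ y) (P.ra_one X p)
    | add x y hx hy => rw [map_add, hx, hy]
  ra_mul X a b x := by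
    induction x using DR.induction with
    | zero => simp
    | tmul w p => exact congrArg (fun y => w ⊗ₜ y) (P.ra_mul X a b p)
    | add x y hx hy => simp only [map_add, hx, hy]
  ra_d := P.raQ_d
  ra_s X a x := by
    induction x using DR.induction with
    | zero => simp
    | tmul w p => exact congrArg (fun y => Om.sg w ⊗ₜ y) (P.sg_ra X a p)
    | add x y hx hy => simp only [map_add, hx, hy]
  ra_gr := P.raQ_gr
  ra_t := P.gt_raQ

/-- The complex of maps from the generator over `X`. -/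
abbrev Φ (F : OT (QS D G s)) (X : QO D) : GD := Hm (P.σ X) (F.F X)

/-- The extension along an arrow. -/
def ext (F : OT (QS D G s)) {X Y : QO D} (u : Ar G s X Y) : GD.Hom (P.Φ F X) (P.Φ F Y) :=
  P.xq.ext F u

theorem ext_t (F : OT (QS D G s)) {X Y : QO D} (u : Ar G s X Y) (η : (P.Φ F X).V)
    (x : (P.Q X).M.V) : (P.ext F u).f η (P.P.gt u x) = F.t u (η x) := P.xq.ext_t F u η x

theorem ext_eq {X Y : QO D} (u : Ar G s X Y) {M : Type} [AddCommGroup M]
    [Module (Om ℂ (RQ G s Y)) M] {η η' : (P.Q Y).M.V →ₗ[Om ℂ (RQ G s Y)] M}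
    (h : ∀ x, η (P.P.gt u x) = η' (P.P.gt u x)) : η = η' := P.xq.ext_eq u h

/-- The levels. -/
abbrev xcs (F : OT (QS D G s)) (i : I) : CS := P.xq.cs (ptQ s K xd) F i

/-- The module `Ξ F`. -/
abbrev xi (F : OT (QS D G s)) : DM P.A := P.xq.xiM (ptQ s K xd) F

/-- The DG functor `Ξ`. -/
abbrev xiD : DGF (otc (QS D G s)) (mdc P.A) := P.xq.xiD (ptQ s K xd)

theorem xiD_obj (F : OT (QS D G s)) : P.xiD.obj F = P.xi F := rfl

theorem xi_M (F : OT (QS D G s)) (i : I) : ((P.xi F).M i).toGD = (P.xcs F i).Tot := rfl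

theorem xcs_X (F : OT (QS D G s)) (i : I) (k : ℕ) :
    (P.xcs F i).X k = P.Φ F ((ptS K xd s i).P k) := rfl

theorem xcs_fc (F : OT (QS D G s)) (i : I) (k l : ℕ) :
    (P.xcs F i).fc k l = P.ext F ((ptS K xd s i).fc k l) := rfl

/-- The component of level `k`. -/
def lv {F : OT (QS D G s)} {i : I} (v : ((P.xi F).M i).V) (k : ℕ) :
    (P.Φ F ((ptS K xd s i).P k)).V := (v : (P.xcs F i).Tot.V) k

/-- The component of level `0`. -/
def lv0 (F : OT (QS D G s)) (i : I) : GD.Hom ((P.xi F).M i).toGD (P.Φ F (Zo xd i)) :=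
  CS.fromZero (X := P.xcs F i) (GD.Hom.id _)

theorem lv0_apply (F : OT (QS D G s)) (i : I) (v : ((P.xi F).M i).V) :
    (P.lv0 F i).f v = P.lv v 0 := rfl

theorem lv_act {F : OT (QS D G s)} {i : I} (a : (P.A.A i).R) (v : ((P.xi F).M i).V) (k : ℕ)
    (x : (P.Q ((ptS K xd s i).P k)).M.V) :
    P.lv (((P.xi F).M i).act a v) k x =
      P.lv v k (P.raQ ((ptS K xd s i).P k) ((P.A.A i).sz k a) x) :=
  congrArg (fun b => P.lv v k (P.raQ ((ptS K xd s i).P k) b x)) (P.A.τ_id i _)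

theorem lv_ρ {F : OT (QS D G s)} {i j : I} (α : i ⟶ j) (v : ((P.xi F).M i).V) (k : ℕ) :
    P.lv (((P.xi F).ρ α).f v) k = (P.ext F ((ptM K xd s α).P k)).f (P.lv v k) :=
  (ptQ s K xd).totM_ρ (P.xq.hmM F) α v k

theorem lv_xiC {F F' : OT (QS D G s)} (n : ℤ) (u : (otF (QS D G s)).P F F' n) (i : I)
    (v : ((P.xi F).M i).V) (k : ℕ) (x : (P.Q ((ptS K xd s i).P k)).M.V) :
    P.lv ((P.xq.xiC (ptQ s K xd) n u).f i v) k x =
      sz n ^ k • u.1 _ (P.lv v k ((P.σ _).sz n x)) := rfl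

theorem lv_z0 {F F' : Z0 (otc (QS D G s))} (u : F ⟶ F') (i : I) (v : ((P.xi F).M i).V) (k : ℕ)
    (x : (P.Q ((ptS K xd s i).P k)).M.V) :
    P.lv (F := F') ((mh (P.xiD.z0.map u) i).f v) k x =
      ((otF (QS D G s)).hom u ((ptS K xd s i).P k)).f (P.lv v k x) :=
  LinearMap.congr_fun ((congrFun (P.xq.xiD_z0 (ptQ s K xd) u i v) k).trans
    (CS.Mor.tot_apply (P.xq.csH (ptQ s K xd) u i) v k)) x

end PD

end

end Vale.Agent.P286EX
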